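import Vale.Agent.P338.R2.H778.Fp.Rul
import Vale.Agent.P338.R2.H525.Fp.RoundD

/-!
P338, stage 2: computation of the rulers.
-/

namespace Vale.Agent.P338.R2.H778.Fp

open Vale.Agent.P338.R2.H898 Vale.Agent.P338.R2.H784
open Vale.Agent.P338.R2.H525.Fp (hPar sPar par)
open Function (update)

set_option linter.unusedSectionVars false

/-- The rulers: `el`: `l`; `hh`: the height `h`; `K = 2 ^ (l - h)`; `X = Y = 2 ^ s`;
`C = 2 ^ (s + 1)`; `G = 2 ^ (l - s)`; `E = 2 ^ (h - s - a)`; `W = l`; `Q = q` (arbitrary);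
`L = L2 = 2 ^ a`; `s = sPar l`; `a = hPar l`. -/
inductive PN
  | el | hh | K | X | Y | C | G | E | W | Q | L | L2 | s | a
  deriving DecidableEq

instance : Fintype PN := ⟨{.el, .hh, .K, .X, .Y, .C, .G, .E, .W, .Q, .L, .L2, .s, .a}, by
  intro x
  cases x <;> simp⟩

/-- At the beginning. -/
def vI (l h : ℕ) : PN → ℕ
  | .el => l
  | .hh => h
  | _ => 0

/-- Between the rounds, at height `h`. -/
def vA (l h q : ℕ) : PN → ℕ
  | .el => l
  | .hh => h
  | .X => 2 ^ sPar l
  | .C => 2 ^ (sPar l + 1)
  | .Q => q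
  | .s => sPar l
  | .a => hPar l
  | _ => 0

/-- In a round. -/
def vB (l h q : ℕ) : PN → ℕ
  | .el => l
  | .hh => h
  | .K => 2 ^ (l - h)
  | .X => 2 ^ sPar l
  | .Y => 2 ^ sPar l
  | .C => 2 ^ (sPar l + 1)
  | .G => 2 ^ (l - sPar l)
  | .E => 2 ^ (h - sPar l - hPar l)
  | .W => l
  | .Q => q
  | .L => 2 ^ hPar l
  | .L2 => 2 ^ hPar l
  | .s => sPar l
  | .a => hPar l

variable {M F α : Type} [DecidableEq F] {d u : α} {j : PN → F}

/-- The logarithm of `el` to `a`. -/
def logP (j : PN → F) (u : α) : Prog M F α :=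
  .seq (cpU (j .el) (j .K) u) (.seq (logU (j .K) (j .a) (j .E) (j .G) u)
    (.seq (clr (j .K)) (.seq (clr (j .E)) (clr (j .G)))))

theorem rp_logP (hj : Function.Injective j) {v : PN → ℕ} (ha : v .K = 0) (hb : v .E = 0)
    (hc : v .G = 0) (hl : 1 ≤ v .el) :
    RP (M := M) d u j (logP j u) v (20 * v .el * v .el + 44 * v .el + 16)
      (update v .a (Nat.log 2 (v .el))) := by
  refine rp_of_tri hj [.el, .a, .K, .E, .G] (fun s hs => ?_) ?_
  · refine (Tri.seq (t' := 20 * v .el * v .el + 40 * v .el + 11)
      (tri_cpU (hj.ne (show PN.el ≠ .K by decide)) (hs .el)) ?_).cost (by omega)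
    rintro s1 ⟨h1, h2, k1⟩
    refine (Tri.seq (t' := 6) (tri_logU (hj.ne (by decide)) (hj.ne (by decide))
      (hj.ne (by decide)) (hj.ne (by decide)) (hj.ne (by decide)) (hj.ne (by decide)) hl h1)
      ?_).cost (by omega)
    rintro s2 ⟨h3, k2⟩
    refine (Tri.seq (t' := 4) (tri_clr _ s2) ?_).cost (by omega)
    rintro s3 ⟨h4, k3⟩
    refine (Tri.seq (t' := 2) (tri_clr _ s3) ?_).cost (by omega)
    rintro s4 ⟨h5, k4⟩
    refine (tri_clr _ s4).post ?_
    rintro s5 ⟨h6, k5⟩
    refine ⟨?_, ?_⟩
    · intro x hx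
      simp only [List.mem_cons, List.not_mem_nil, or_false] at hx
      rcases hx with rfl | rfl | rfl | rfl | rfl
      · rw [Function.update_of_ne (by decide)]
        exact k5.len (by simp [hj.eq_iff]) (k4.len (by simp [hj.eq_iff])
          (k3.len (by simp [hj.eq_iff]) (k2.len (by simp [hj.eq_iff]) h2)))
      · rw [Function.update_self]
        exact k5.len (by simp [hj.eq_iff]) (k4.len (by simp [hj.eq_iff])
          (k3.len (by simp [hj.eq_iff]) h3))
      · rw [Function.update_of_ne (by decide), ha]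
        exact k5.len (by simp [hj.eq_iff]) (k4.len (by simp [hj.eq_iff]) h4)
      · rw [Function.update_of_ne (by decide), hb]
        exact k5.len (by simp [hj.eq_iff]) h5
      · rw [Function.update_of_ne (by decide), hc]
        exact h6
    · exact (k1.mono (by simp)).trans ((k2.mono (by simp)).trans ((k3.mono (by simp)).trans
        ((k4.mono (by simp)).trans (k5.mono (by simp)))))
  · intro x hx
    simp only [List.mem_cons, List.not_mem_nil, or_false, not_or] at hx
    rw [Function.update_of_ne hx.2.1]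


theorem sched_cost {l : ℕ} (hl : 32 ≤ l) :
    20 * l * l + 44 * l + 16 +
      (2 * (hPar l + 1 + 1 + 1) + 8 +
        (2 * (hPar l + 1 + 1) + 8 +
          (2 * (hPar l + 1) + 8 +
            (2 * hPar l + 8 +
              (4 * l + 7 +
                (8 * (l - hPar l) + 16 +
                  (8 * ((l - hPar l) / 2) + 16 +
                    (8 * ((l - hPar l) / 2 / 2) + 16 +
                      (2 +
                        (2 +
                          (2 +
                            (8 * 2 ^ sPar l + 8 * sPar l + 5 +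
                              (4 * sPar l + 5 +
                                (2 * sPar l + 4 +
                                  (8 * 2 ^ (sPar l + 1) + 8 * (sPar l + 1) + 5 + 2)))))))))))))))
      ≤ 500 * 4 ^ l := by
  obtain ⟨-, -, -, -, g5, -, -⟩ := par l hl
  have h1 : l < 2 ^ l := Nat.lt_two_pow_self
  have h2 : (2 : ℕ) ^ l * 2 ^ l = 4 ^ l := by rw [← mul_pow]; norm_num
  have h3 : l * l ≤ 2 ^ l * 2 ^ l := Nat.mul_le_mul h1.le h1.le
  have h4 : 2 ^ l ≤ 4 ^ l := Nat.pow_le_pow_left (by norm_num) l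
  have h5 : 2 ^ sPar l ≤ 2 ^ l := Nat.pow_le_pow_right (by norm_num) (by omega)
  have h7 : 2 ^ (sPar l + 1) = 2 * 2 ^ sPar l := by ring
  have h8 : 20 * l * l = 20 * (l * l) := by ring
  have h9 : l - hPar l ≤ l := Nat.sub_le _ _
  have h10 : (l - hPar l) / 2 ≤ l := (Nat.div_le_self _ _).trans h9
  have h11 : (l - hPar l) / 2 / 2 ≤ l := (Nat.div_le_self _ _).trans h10
  have h12 : hPar l ≤ l := by omega
  have h13 : sPar l ≤ l := by omega
  rw [h8, h7]
  linarith

/-- The schedule: `a`, `s`, `X`, `C` from `el`. -/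
def sched (j : PN → F) (u : α) : Prog M F α :=
  .seq (logP j u) (.seq (decU (j .a)) (.seq (decU (j .a)) (.seq (decU (j .a))
    (.seq (decU (j .a)) (.seq (diffU (j .el) (j .a) (j .K) u)
    (.seq (halve (j .K) (j .E) (j .G) u) (.seq (halve (j .G) (j .E) (j .K) u)
    (.seq (halve (j .K) (j .E) (j .s) u) (.seq (clr (j .K)) (.seq (clr (j .E)) (.seq (clr (j .G))
    (.seq (pow2 (j .s) (j .X) (j .W) u) (.seq (cpU (j .s) (j .K) u) (.seq (incU (j .K) u)
    (.seq (pow2 (j .K) (j .C) (j .W) u) (clr (j .K)))))))))))))))))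

theorem rp_sched (hj : Function.Injective j) {l h : ℕ} (hl : 32 ≤ l) :
    RP (M := M) d u j (sched j u) (vI l h) (500 * 4 ^ l) (vA l h 0) := by
  obtain ⟨g1, g2, g3, g4, g5, g6, g7⟩ := par l hl
  have b1 : 5 ≤ Nat.log 2 l := Nat.le_log_of_pow_le (by norm_num) (by omega)
  have b6 : Nat.log 2 l = hPar l + 1 + 1 + 1 + 1 := by unfold hPar; omega
  have b7 : Nat.log 2 l ≤ l := Nat.log_le_self 2 l
  have e2 : (l - hPar l) / 2 / 2 / 2 = sPar l := by
    unfold sPar
    rw [Nat.div_div_eq_div_mul, Nat.div_div_eq_div_mul]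
  have h0 := (rp_logP (M := M) (d := d) (u := u) hj (v := vI l h) rfl rfl rfl
    (by simp only [vI]; omega))
  simp only [vI] at h0
  rw [b6] at h0
  have h := h0.seq
    ((rp_dec' hj (a := .a) (n := hPar l + 1 + 1 + 1) (by simp [vI, vA, vB, Function.update])).seq
    ((rp_dec' hj (a := .a) (n := hPar l + 1 + 1) (by simp [vI, vA, vB, Function.update])).seq
    ((rp_dec' hj (a := .a) (n := hPar l + 1) (by simp [vI, vA, vB, Function.update])).seq
    ((rp_dec' hj (a := .a) (n := hPar l) (by simp [vI, vA, vB, Function.update])).seq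
    ((rp_diff' hj (a := .el) (b := .a) (c := .K) (m := l) (n := hPar l) (by decide) (by decide)
      (by decide) (by simp [vI, vA, vB, Function.update]) (by simp [vI, vA, vB, Function.update]) (by omega)).seq
    ((rp_halve' hj (a := .K) (b := .E) (c := .G) (n := l - hPar l) (by decide) (by decide)
      (by decide) (by simp [vI, vA, vB, Function.update])).seq
    ((rp_halve' hj (a := .G) (b := .E) (c := .K) (n := (l - hPar l) / 2) (by decide) (by decide)
      (by decide) (by simp [vI, vA, vB, Function.update])).seq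
    ((rp_halve' hj (a := .K) (b := .E) (c := .s) (n := (l - hPar l) / 2 / 2) (by decide)
      (by decide) (by decide) (by simp [vI, vA, vB, Function.update])).seq
    ((rp_clr hj .K).seq ((rp_clr hj .E).seq ((rp_clr hj .G).seq
    ((rp_pow' hj (a := .s) (b := .X) (t := .W) (n := sPar l) (by decide) (by decide) (by decide)
      (by simp [vI, vA, vB, Function.update]) (by simp [vI, vA, vB, Function.update]; exact e2)).seq
    ((rp_cp' hj (a := .s) (b := .K) (n := sPar l) (by decide) (by simp [vI, vA, vB, Function.update]; exact e2)).seq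
    ((rp_inc' hj (a := .K) (n := sPar l) (by simp [vI, vA, vB, Function.update])).seq
    ((rp_pow' hj (a := .K) (b := .C) (t := .W) (n := sPar l + 1) (by decide) (by decide)
      (by decide) (by simp [vI, vA, vB, Function.update]) (by simp [vI, vA, vB, Function.update])).seq (rp_clr hj .K))))))))))))))))
  refine h.mono ?_ ?_
  · funext x
    cases x <;> simp [update, vI, vA, e2]
  · exact sched_cost hl

/-- The rulers of a round. -/
def prep (j : PN → F) (u : α) : Prog M F α :=
  .seq (diffU (j .el) (j .hh) (j .Y) u) (.seq (pow2 (j .Y) (j .K) (j .W) u)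
    (.seq (diffU (j .el) (j .s) (j .Y) u) (.seq (pow2 (j .Y) (j .G) (j .W) u)
    (.seq (diffU (j .hh) (j .s) (j .Y) u) (.seq (diffU (j .Y) (j .a) (j .L) u)
    (.seq (pow2 (j .L) (j .E) (j .W) u) (.seq (pow2 (j .a) (j .L) (j .W) u)
    (.seq (cpU (j .L) (j .L2) u) (.seq (cpU (j .X) (j .Y) u) (cpU (j .el) (j .W) u))))))))))

theorem rp_prep (hj : Function.Injective j) {l h q : ℕ} (hl : 32 ≤ l) (hh : hPar l + sPar l ≤ h)
    (hhl : h ≤ l) :
    RP (M := M) d u j (prep j u) (vA l h q) (400 * 4 ^ l) (vB l h q) := by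
  obtain ⟨g1, g2, g3, g4, g5, g6, g7⟩ := par l hl
  have r := (rp_diff' (M := M) (d := d) (u := u) hj (v := vA l h q) (a := .el) (b := .hh) (c := .Y)
      (m := l) (n := h) (by decide) (by decide) (by decide) (by simp [vI, vA, vB, Function.update]) (by simp [vI, vA, vB, Function.update]) hhl).seq
    ((rp_pow' hj (a := .Y) (b := .K) (t := .W) (n := l - h) (by decide) (by decide) (by decide)
      (by simp [vI, vA, vB, Function.update]) (by simp [vI, vA, vB, Function.update])).seq
    ((rp_diff' hj (a := .el) (b := .s) (c := .Y) (m := l) (n := sPar l) (by decide) (by decide)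
      (by decide) (by simp [vI, vA, vB, Function.update]) (by simp [vI, vA, vB, Function.update]) (by omega)).seq
    ((rp_pow' hj (a := .Y) (b := .G) (t := .W) (n := l - sPar l) (by decide) (by decide)
      (by decide) (by simp [vI, vA, vB, Function.update]) (by simp [vI, vA, vB, Function.update])).seq
    ((rp_diff' hj (a := .hh) (b := .s) (c := .Y) (m := h) (n := sPar l) (by decide) (by decide)
      (by decide) (by simp [vI, vA, vB, Function.update]) (by simp [vI, vA, vB, Function.update]) (by omega)).seq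
    ((rp_diff' hj (a := .Y) (b := .a) (c := .L) (m := h - sPar l) (n := hPar l) (by decide)
      (by decide) (by decide) (by simp [vI, vA, vB, Function.update]) (by simp [vI, vA, vB, Function.update]) (by omega)).seq
    ((rp_pow' hj (a := .L) (b := .E) (t := .W) (n := h - sPar l - hPar l) (by decide) (by decide)
      (by decide) (by simp [vI, vA, vB, Function.update]) (by simp [vI, vA, vB, Function.update])).seq
    ((rp_pow' hj (a := .a) (b := .L) (t := .W) (n := hPar l) (by decide) (by decide)
      (by decide) (by simp [vI, vA, vB, Function.update]) (by simp [vI, vA, vB, Function.update])).seq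
    ((rp_cp' hj (a := .L) (b := .L2) (n := 2 ^ hPar l) (by decide) (by simp [vI, vA, vB, Function.update])).seq
    ((rp_cp' hj (a := .X) (b := .Y) (n := 2 ^ sPar l) (by decide) (by simp [vI, vA, vB, Function.update])).seq
    (rp_cp' hj (a := .el) (b := .W) (n := l) (by decide) (by simp [vI, vA, vB, Function.update])))))))))))
  refine r.mono ?_ ?_
  · funext x
    cases x <;> simp [update, vB, vA]
  · have h1 : l < 2 ^ l := Nat.lt_two_pow_self
    have h4 : 2 ^ l ≤ 4 ^ l := Nat.pow_le_pow_left (by norm_num) l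
    have h5 : 2 ^ (l - h) ≤ 2 ^ l := Nat.pow_le_pow_right (by norm_num) (by omega)
    have h6 : 2 ^ (h - sPar l - hPar l) ≤ 2 ^ l := Nat.pow_le_pow_right (by norm_num) (by omega)
    have h7 : 2 ^ sPar l ≤ 2 ^ l := Nat.pow_le_pow_right (by norm_num) (by omega)
    have h8 : 2 ^ (l - sPar l) ≤ 2 ^ l := Nat.pow_le_pow_right (by norm_num) (by omega)
    omega

/-- The end of a round: `hh := hh - s`, wipe the other rulers. -/
def post (j : PN → F) (u : α) : Prog M F α :=
  .seq (diffU (j .hh) (j .s) (j .K) u) (.seq (cpU (j .K) (j .hh) u)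
    (clrs j [.K, .Y, .G, .E, .W, .L, .L2]))

theorem rp_post (hj : Function.Injective j) {l h q : ℕ} (hs : sPar l ≤ h) (hhl : h ≤ l) :
    RP (M := M) d u j (post j u) (vB l h q) (40 * 4 ^ l) (vA l (h - sPar l) q) := by
  have r := (rp_diff' (M := M) (d := d) (u := u) hj (v := vB l h q) (a := .hh) (b := .s) (c := .K)
      (m := h) (n := sPar l) (by decide) (by decide) (by decide) (by simp [vI, vA, vB, Function.update]) (by simp [vI, vA, vB, Function.update]) hs).seq
    ((rp_cp' hj (a := .K) (b := .hh) (n := h - sPar l) (by decide) (by simp [vI, vA, vB, Function.update])).seq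
    (rp_clrs hj [.K, .Y, .G, .E, .W, .L, .L2] _))
  refine r.mono ?_ ?_
  · funext x
    cases x <;> simp [update, vB, vA]
  · simp only [List.length_cons, List.length_nil]
    have h1 : l < 4 ^ l := Nat.lt_pow_self (by norm_num)
    omega

/-- Clear all rulers except `el` and `hh`. -/
def wipe (j : PN → F) : Prog M F α := clrs j [.X, .C, .Q, .s, .a]

theorem rp_wipe (hj : Function.Injective j) {l h q : ℕ} :
    RP (M := M) d u j (wipe j) (vA l h q) 11 (vI l h) := by
  refine (rp_clrs hj _ _).mono ?_ (by simp)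
  funext x
  cases x <;> simp [vI, vA]

/-! ### Exact statements -/


/-- An exact statement: the final store is the initial one with the rulers updated. -/
theorem RP.run {ρ : Type} {j : ρ → F} {p : Prog M F α} {v v' : ρ → ℕ} {c : ℕ}
    (h : RP d u j p v c v') {s s' : Store M F α} (hs : RL u j v s) (hs' : RL u j v' s')
    (hm : s'.m = s.m) (hz : ∀ f, (∀ x, f ≠ j x) → s'.z f = s.z f) : Prog.Run d p s c s' := by
  obtain ⟨s1, h1, h2, h3, h4⟩ := h s hs
  have e : s1 = s' := by
    rcases s1 with ⟨m1, z1⟩
    rcases s' with ⟨m', z'⟩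
    simp only at h2 h3 h4 hm hz hs'
    rw [h3, hm]
    congr 1
    funext f
    by_cases hf : ∃ x, f = j x
    · obtain ⟨x, rfl⟩ := hf
      have e1 := h2 x
      have e2 := hs' x
      simp only [Len] at e1 e2
      rw [e1, e2]
    · rw [h4 f (fun x hx => hf ⟨x, hx⟩), hz f (fun x hx => hf ⟨x, hx⟩)]
  rw [← e]
  exact h1

/-! ### Large and small sizes -/

/-- Move right `n` times. -/
def rights (f : F) : ℕ → Prog M F α
  | 0 => nop
  | n + 1 => .seq (.ite (fun _ r => (r f).isSome) (op f .right) nop) (rights f n)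

theorem tri_rights {f : F} (n : ℕ) {s : Store M F α} {i k : ℕ} (h : Len u i k (s.z f)) :
    Tri d (rights f n) s (2 * n + 1) (fun s' => Len u (i + min n k) (k - n) (s'.z f) ∧
      Keep [f] s s') := by
  induction n generalizing s i k with
  | zero =>
    refine ⟨s, run_nop s.m s.z, by simpa using h, Keep.refl _ _⟩
  | succ n ih =>
    refine (Tri.seq (t := 2) (t' := 2 * n + 1) (Q := fun s' =>
      Len u (i + min 1 k) (k - 1) (s'.z f) ∧ Keep [f] s s') ?_ ?_).cost (by omega)
    · refine Tri.ite (t := 1) ?_ ?_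
      · intro hc
        rw [Store.reads, h.peek_isSome] at hc
        obtain ⟨k', rfl⟩ : ∃ k', k = k' + 1 := ⟨k - 1, by simp at hc; omega⟩
        refine (tri_right h).post ?_
        rintro s' ⟨h1, h2⟩
        refine ⟨?_, h2⟩
        have e : min 1 (k' + 1) = 1 := by omega
        rw [e, Nat.add_sub_cancel]
        exact h1
      · intro hc
        rw [Store.reads, h.peek_isSome] at hc
        obtain rfl : k = 0 := by simpa using hc
        exact ⟨s, run_nop s.m s.z, by simpa using h, Keep.refl _ _⟩
    · rintro s1 ⟨h1, k1⟩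
      refine (ih h1).post ?_
      rintro s2 ⟨h2, k2⟩
      refine ⟨?_, k1.trans k2⟩
      have e1 : i + min (n + 1) k = i + min 1 k + min n (k - 1) := by omega
      have e2 : k - (n + 1) = k - 1 - n := by omega
      rw [e1, e2]
      exact h2

/-- `if n < |f| then p else q`. -/
def ifLt (f : F) (n : ℕ) (p q : Prog M F α) : Prog M F α :=
  .seq (rights f n) (.ite (fun _ r => (r f).isSome) (.seq (op f .rew) p) (.seq (op f .rew) q))

theorem tri_ifLt {f : F} {n : ℕ} {p q : Prog M F α} {s : Store M F α} {k t : ℕ}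
    {Q : Store M F α → Prop} (h : Len u 0 k (s.z f))
    (h1 : n < k → Tri d p s t Q) (h2 : k ≤ n → Tri d q s t Q) :
    Tri d (ifLt f n p q) s (t + 2 * n + 3) Q := by
  refine (Tri.seq (t' := t + 2) (tri_rights n h) ?_).cost (by omega)
  rintro s1 ⟨h3, k1⟩
  have key : ∀ s2 : Store M F α, Len u 0 (0 + min n k + (k - n)) (s2.z f) ∧ Keep [f] s1 s2 →
      s2 = s := by
    rintro s2 ⟨h4, k2⟩
    have k3 := k1.trans k2
    have e : 0 + min n k + (k - n) = k := by omega
    rw [e] at h4
    rcases s2 with ⟨m2, z2⟩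
    rcases s with ⟨m, z⟩
    obtain ⟨h5, h6⟩ := k3
    simp only at h5 h6 h4 h
    subst h5
    simp only [Store.mk.injEq, true_and]
    funext g
    by_cases hg : g = f
    · subst hg
      exact h4.trans h.symm
    · exact h6 g (by simpa using hg)
  refine (Tri.ite (t := t + 1) ?_ ?_).cost (by omega)
  · intro hc
    rw [Store.reads, h3.peek_isSome] at hc
    have hc' : n < k := by simpa using hc
    refine (Tri.seq (t' := t) (tri_rew h3) ?_).cost (by omega)
    intro s2 hs2
    rw [key s2 hs2]
    exact h1 hc'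
  · intro hc
    rw [Store.reads, h3.peek_isSome] at hc
    have hc' : k ≤ n := by
      have : ¬ (0 < k - n) := by simpa using hc
      omega
    refine (Tri.seq (t' := t) (tri_rew h3) ?_).cost (by omega)
    intro s2 hs2
    rw [key s2 hs2]
    exact h2 hc'

end Vale.Agent.P338.R2.H778.Fp
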