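import Vale.Agent.P338.R2.H778.Fp.Prep

/-!
P338, stage 2: computation of the rulers, for an arbitrary width `w` (the height at the beginning
of a phase).
-/

namespace Vale.Agent.P338.R2.H778.FpW

open Vale.Agent.P338.R2.H898 Vale.Agent.P338.R2.H784
open Vale.Agent.P338.R2.H778.Fp (RL RP rp_of_tri rp_cp' rp_inc' rp_dec' rp_pow' rp_halve' rp_diff'
  rp_clr rp_clrs clrs logU tri_logU sched_cost)
open Vale.Agent.P338.R2.H525.Fp (hPar sPar par)
open Function (update)

set_option linter.unusedSectionVars false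

/-- The rulers: `el`: `l`; `hh`: the height `h`; `wd`: the width `w`; `K = 2 ^ (l - h)`;
`X = Y = 2 ^ s`; `C = 2 ^ (s + 1)`; `G = 2 ^ (l - s)`; `E = 2 ^ (h - s - a)`; `W = w`; `Q = q`
(arbitrary); `L = L2 = 2 ^ a`; `s = sPar w`; `a = hPar w`. -/
inductive PN
  | el | hh | wd | K | X | Y | C | G | E | W | Q | L | L2 | s | a
  deriving DecidableEq

instance : Fintype PN := ⟨{.el, .hh, .wd, .K, .X, .Y, .C, .G, .E, .W, .Q, .L, .L2, .s, .a}, by
  intro x
  cases x <;> simp⟩

/-- At the beginning. -/
def vI (l h : ℕ) : PN → ℕ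
  | .el => l
  | .hh => h
  | _ => 0

/-- Between the rounds, at height `h`. -/
def vA (l w h q : ℕ) : PN → ℕ
  | .el => l
  | .hh => h
  | .wd => w
  | .X => 2 ^ sPar w
  | .C => 2 ^ (sPar w + 1)
  | .Q => q
  | .s => sPar w
  | .a => hPar w
  | _ => 0

/-- In a round. -/
def vB (l w h q : ℕ) : PN → ℕ
  | .el => l
  | .hh => h
  | .wd => w
  | .K => 2 ^ (l - h)
  | .X => 2 ^ sPar w
  | .Y => 2 ^ sPar w
  | .C => 2 ^ (sPar w + 1)
  | .G => 2 ^ (l - sPar w)
  | .E => 2 ^ (h - sPar w - hPar w)
  | .W => w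
  | .Q => q
  | .L => 2 ^ hPar w
  | .L2 => 2 ^ hPar w
  | .s => sPar w
  | .a => hPar w

variable {M F α : Type} [DecidableEq F] {d u : α} {j : PN → F}

/-- The logarithm of `wd` to `a`. -/
def logP (j : PN → F) (u : α) : Prog M F α :=
  .seq (cpU (j .wd) (j .K) u) (.seq (logU (j .K) (j .a) (j .E) (j .G) u)
    (.seq (clr (j .K)) (.seq (clr (j .E)) (clr (j .G)))))

theorem rp_logP (hj : Function.Injective j) {v : PN → ℕ} (ha : v .K = 0) (hb : v .E = 0)
    (hc : v .G = 0) {n : ℕ} (hl : v .wd = n) (hn : 1 ≤ n) :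
    RP (M := M) d u j (logP j u) v (20 * n * n + 44 * n + 16)
      (update v .a (Nat.log 2 n)) := by
  subst hl
  refine rp_of_tri hj [.wd, .a, .K, .E, .G] (fun s hs => ?_) ?_
  · refine (Tri.seq (t' := 20 * v .wd * v .wd + 40 * v .wd + 11)
      (tri_cpU (hj.ne (show PN.wd ≠ .K by decide)) (hs .wd)) ?_).cost (by omega)
    rintro s1 ⟨h1, h2, k1⟩
    refine (Tri.seq (t' := 6) (tri_logU (hj.ne (by decide)) (hj.ne (by decide))
      (hj.ne (by decide)) (hj.ne (by decide)) (hj.ne (by decide)) (hj.ne (by decide)) hn h1)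
      ?_).cost (by omega)
    rintro s2 ⟨h3, k2⟩
    refine (Tri.seq (t' := 4) (tri_clr _ s2) ?_).cost (by omega)
    rintro s3 ⟨h4, k3⟩
    refine (Tri.seq (t' := 2) (tri_clr _ s3) ?_).cost (by omega)
    rintro s4 ⟨h5, k4⟩
    refine (tri_clr _ s4).post ?_
    rintro s5 ⟨h6, k5⟩
    refine ⟨?_, ?_⟩
    · intro x hx
      simp only [List.mem_cons, List.not_mem_nil, or_false] at hx
      rcases hx with rfl | rfl | rfl | rfl | rfl
      · rw [Function.update_of_ne (by decide)]
        exact k5.len (by simp [hj.eq_iff]) (k4.len (by simp [hj.eq_iff])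
          (k3.len (by simp [hj.eq_iff]) (k2.len (by simp [hj.eq_iff]) h2)))
      · rw [Function.update_self]
        exact k5.len (by simp [hj.eq_iff]) (k4.len (by simp [hj.eq_iff])
          (k3.len (by simp [hj.eq_iff]) h3))
      · rw [Function.update_of_ne (by decide), ha]
        exact k5.len (by simp [hj.eq_iff]) (k4.len (by simp [hj.eq_iff]) h4)
      · rw [Function.update_of_ne (by decide), hb]
        exact k5.len (by simp [hj.eq_iff]) h5
      · rw [Function.update_of_ne (by decide), hc]
        exact h6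
    · exact (k1.mono (by simp)).trans ((k2.mono (by simp)).trans ((k3.mono (by simp)).trans
        ((k4.mono (by simp)).trans (k5.mono (by simp)))))
  · intro x hx
    simp only [List.mem_cons, List.not_mem_nil, or_false, not_or] at hx
    rw [Function.update_of_ne hx.2.1]


/-- The schedule: `wd`, `a`, `s`, `X`, `C` from `hh`. -/
def sched (j : PN → F) (u : α) : Prog M F α :=
  .seq (cpU (j .hh) (j .wd) u)
  (.seq (logP j u) (.seq (decU (j .a)) (.seq (decU (j .a)) (.seq (decU (j .a))
    (.seq (decU (j .a)) (.seq (diffU (j .wd) (j .a) (j .K) u)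
    (.seq (halve (j .K) (j .E) (j .G) u) (.seq (halve (j .G) (j .E) (j .K) u)
    (.seq (halve (j .K) (j .E) (j .s) u) (.seq (clr (j .K)) (.seq (clr (j .E)) (.seq (clr (j .G))
    (.seq (pow2 (j .s) (j .X) (j .W) u) (.seq (cpU (j .s) (j .K) u) (.seq (incU (j .K) u)
    (.seq (pow2 (j .K) (j .C) (j .W) u) (clr (j .K))))))))))))))))))

theorem rp_sched (hj : Function.Injective j) {l w : ℕ} (hw : 32 ≤ w) :
    RP (M := M) d u j (sched j u) (vI l w) (510 * 4 ^ w) (vA l w w 0) := by
  obtain ⟨g1, g2, g3, g4, g5, g6, g7⟩ := par w hw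
  have b1 : 5 ≤ Nat.log 2 w := Nat.le_log_of_pow_le (by norm_num) (by omega)
  have b6 : Nat.log 2 w = hPar w + 1 + 1 + 1 + 1 := by unfold hPar; omega
  have b7 : Nat.log 2 w ≤ w := Nat.log_le_self 2 w
  have e2 : (w - hPar w) / 2 / 2 / 2 = sPar w := by
    unfold sPar
    rw [Nat.div_div_eq_div_mul, Nat.div_div_eq_div_mul]
  have h0 := (rp_logP (M := M) (d := d) (u := u) hj (v := update (vI l w) .wd w) (n := w)
    rfl rfl rfl (by simp [vI, vA, vB, Function.update]) (by omega))
  rw [b6] at h0
  have h := (rp_cp' (M := M) (d := d) (u := u) hj (v := vI l w) (a := .hh) (b := .wd) (n := w)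
      (by decide) (by simp [vI, vA, vB, Function.update])).seq
    (h0.seq
    ((rp_dec' hj (a := .a) (n := hPar w + 1 + 1 + 1) (by simp [vI, vA, vB, Function.update])).seq
    ((rp_dec' hj (a := .a) (n := hPar w + 1 + 1) (by simp [vI, vA, vB, Function.update])).seq
    ((rp_dec' hj (a := .a) (n := hPar w + 1) (by simp [vI, vA, vB, Function.update])).seq
    ((rp_dec' hj (a := .a) (n := hPar w) (by simp [vI, vA, vB, Function.update])).seq
    ((rp_diff' hj (a := .wd) (b := .a) (c := .K) (m := w) (n := hPar w) (by decide) (by decide)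
      (by decide) (by simp [vI, vA, vB, Function.update]) (by simp [vI, vA, vB, Function.update]) (by omega)).seq
    ((rp_halve' hj (a := .K) (b := .E) (c := .G) (n := w - hPar w) (by decide) (by decide)
      (by decide) (by simp [vI, vA, vB, Function.update])).seq
    ((rp_halve' hj (a := .G) (b := .E) (c := .K) (n := (w - hPar w) / 2) (by decide) (by decide)
      (by decide) (by simp [vI, vA, vB, Function.update])).seq
    ((rp_halve' hj (a := .K) (b := .E) (c := .s) (n := (w - hPar w) / 2 / 2) (by decide)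
      (by decide) (by decide) (by simp [vI, vA, vB, Function.update])).seq
    ((rp_clr hj .K).seq ((rp_clr hj .E).seq ((rp_clr hj .G).seq
    ((rp_pow' hj (a := .s) (b := .X) (t := .W) (n := sPar w) (by decide) (by decide) (by decide)
      (by simp [vI, vA, vB, Function.update]) (by simp [vI, vA, vB, Function.update]; exact e2)).seq
    ((rp_cp' hj (a := .s) (b := .K) (n := sPar w) (by decide) (by simp [vI, vA, vB, Function.update]; exact e2)).seq
    ((rp_inc' hj (a := .K) (n := sPar w) (by simp [vI, vA, vB, Function.update])).seq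
    ((rp_pow' hj (a := .K) (b := .C) (t := .W) (n := sPar w + 1) (by decide) (by decide)
      (by decide) (by simp [vI, vA, vB, Function.update]) (by simp [vI, vA, vB, Function.update])).seq (rp_clr hj .K)))))))))))))))))
  refine h.mono ?_ ?_
  · funext x
    cases x <;> simp [update, vI, vA, e2]
  · have h1 : w < 4 ^ w := Nat.lt_pow_self (by norm_num)
    have h2 := sched_cost hw
    calc _ ≤ 4 * w + 5 + 500 * 4 ^ w := Nat.add_le_add_left h2 _
      _ ≤ 510 * 4 ^ w := by omega

/-- The rulers of a round. -/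
def prep (j : PN → F) (u : α) : Prog M F α :=
  .seq (diffU (j .el) (j .hh) (j .Y) u) (.seq (pow2 (j .Y) (j .K) (j .W) u)
    (.seq (diffU (j .el) (j .s) (j .Y) u) (.seq (pow2 (j .Y) (j .G) (j .W) u)
    (.seq (diffU (j .hh) (j .s) (j .Y) u) (.seq (diffU (j .Y) (j .a) (j .L) u)
    (.seq (pow2 (j .L) (j .E) (j .W) u) (.seq (pow2 (j .a) (j .L) (j .W) u)
    (.seq (cpU (j .L) (j .L2) u) (.seq (cpU (j .X) (j .Y) u) (cpU (j .wd) (j .W) u))))))))))

theorem rp_prep (hj : Function.Injective j) {l w h q : ℕ} (hw : 32 ≤ w)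
    (hh : hPar w + sPar w ≤ h) (hhl : h ≤ l) (hwl : w ≤ l) :
    RP (M := M) d u j (prep j u) (vA l w h q) (400 * 4 ^ l) (vB l w h q) := by
  obtain ⟨g1, g2, g3, g4, g5, g6, g7⟩ := par w hw
  have r := (rp_diff' (M := M) (d := d) (u := u) hj (v := vA l w h q) (a := .el) (b := .hh)
      (c := .Y) (m := l) (n := h) (by decide) (by decide) (by decide) (by simp [vI, vA, vB, Function.update]) (by simp [vI, vA, vB, Function.update]) hhl).seq
    ((rp_pow' hj (a := .Y) (b := .K) (t := .W) (n := l - h) (by decide) (by decide) (by decide)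
      (by simp [vI, vA, vB, Function.update]) (by simp [vI, vA, vB, Function.update])).seq
    ((rp_diff' hj (a := .el) (b := .s) (c := .Y) (m := l) (n := sPar w) (by decide) (by decide)
      (by decide) (by simp [vI, vA, vB, Function.update]) (by simp [vI, vA, vB, Function.update]) (by omega)).seq
    ((rp_pow' hj (a := .Y) (b := .G) (t := .W) (n := l - sPar w) (by decide) (by decide)
      (by decide) (by simp [vI, vA, vB, Function.update]) (by simp [vI, vA, vB, Function.update])).seq
    ((rp_diff' hj (a := .hh) (b := .s) (c := .Y) (m := h) (n := sPar w) (by decide) (by decide)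
      (by decide) (by simp [vI, vA, vB, Function.update]) (by simp [vI, vA, vB, Function.update]) (by omega)).seq
    ((rp_diff' hj (a := .Y) (b := .a) (c := .L) (m := h - sPar w) (n := hPar w) (by decide)
      (by decide) (by decide) (by simp [vI, vA, vB, Function.update]) (by simp [vI, vA, vB, Function.update]) (by omega)).seq
    ((rp_pow' hj (a := .L) (b := .E) (t := .W) (n := h - sPar w - hPar w) (by decide) (by decide)
      (by decide) (by simp [vI, vA, vB, Function.update]) (by simp [vI, vA, vB, Function.update])).seq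
    ((rp_pow' hj (a := .a) (b := .L) (t := .W) (n := hPar w) (by decide) (by decide)
      (by decide) (by simp [vI, vA, vB, Function.update]) (by simp [vI, vA, vB, Function.update])).seq
    ((rp_cp' hj (a := .L) (b := .L2) (n := 2 ^ hPar w) (by decide) (by simp [vI, vA, vB, Function.update])).seq
    ((rp_cp' hj (a := .X) (b := .Y) (n := 2 ^ sPar w) (by decide) (by simp [vI, vA, vB, Function.update])).seq
    (rp_cp' hj (a := .wd) (b := .W) (n := w) (by decide) (by simp [vI, vA, vB, Function.update])))))))))))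
  refine r.mono ?_ ?_
  · funext x
    cases x <;> simp [update, vB, vA]
  · have h1 : l < 2 ^ l := Nat.lt_two_pow_self
    have h4 : 2 ^ l ≤ 4 ^ l := Nat.pow_le_pow_left (by norm_num) l
    have h5 : 2 ^ (l - h) ≤ 2 ^ l := Nat.pow_le_pow_right (by norm_num) (by omega)
    have h6 : 2 ^ (h - sPar w - hPar w) ≤ 2 ^ l := Nat.pow_le_pow_right (by norm_num) (by omega)
    have h7 : 2 ^ sPar w ≤ 2 ^ l := Nat.pow_le_pow_right (by norm_num) (by omega)
    have h8 : 2 ^ (l - sPar w) ≤ 2 ^ l := Nat.pow_le_pow_right (by norm_num) (by omega)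
    omega

/-- The end of a round: `hh := hh - s`, wipe the other rulers. -/
def post (j : PN → F) (u : α) : Prog M F α :=
  .seq (diffU (j .hh) (j .s) (j .K) u) (.seq (cpU (j .K) (j .hh) u)
    (clrs j [.K, .Y, .G, .E, .W, .L, .L2]))

theorem rp_post (hj : Function.Injective j) {l w h q : ℕ} (hs : sPar w ≤ h) (hhl : h ≤ l) :
    RP (M := M) d u j (post j u) (vB l w h q) (40 * 4 ^ l) (vA l w (h - sPar w) q) := by
  have r := (rp_diff' (M := M) (d := d) (u := u) hj (v := vB l w h q) (a := .hh) (b := .s)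
      (c := .K) (m := h) (n := sPar w) (by decide) (by decide) (by decide) (by simp [vI, vA, vB, Function.update]) (by simp [vI, vA, vB, Function.update]) hs).seq
    ((rp_cp' hj (a := .K) (b := .hh) (n := h - sPar w) (by decide) (by simp [vI, vA, vB, Function.update])).seq
    (rp_clrs hj [.K, .Y, .G, .E, .W, .L, .L2] _))
  refine r.mono ?_ ?_
  · funext x
    cases x <;> simp [update, vB, vA]
  · simp only [List.length_cons, List.length_nil]
    have h1 : l < 4 ^ l := Nat.lt_pow_self (by norm_num)
    omega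

/-- Clear all rulers except `el` and `hh`. -/
def wipe (j : PN → F) : Prog M F α := clrs j [.wd, .X, .C, .Q, .s, .a]

theorem rp_wipe (hj : Function.Injective j) {l w h q : ℕ} :
    RP (M := M) d u j (wipe j) (vA l w h q) 13 (vI l h) := by
  refine (rp_clrs hj _ _).mono ?_ (by simp)
  funext x
  cases x <;> simp [vI, vA]

end Vale.Agent.P338.R2.H778.FpW
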