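import Vale.Agent.P338.R2.H784.Prep

/-!
P338, stage 2: a calculus for programs on rulers, generic in the type of the names of the rulers.
-/

namespace Vale.Agent.P338.R2.H778.Fp

open Vale.Agent.P338.R2.H898 Vale.Agent.P338.R2.H784
open Function (update)

set_option linter.unusedSectionVars false

variable {ρ M F α : Type} [DecidableEq F] [DecidableEq ρ] {d u : α} {j : ρ → F}

/-- All files `j x` are rulers of lengths `v x`, with the heads at the beginning. -/
def RL (u : α) (j : ρ → F) (v : ρ → ℕ) (s : Store M F α) : Prop :=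
  ∀ x, Len u 0 (v x) (s.z (j x))

/-- The program `p` changes only the rulers `j x`, from lengths `v x` to lengths `v' x`, at a cost
of at most `c`. -/
def RP (d u : α) (j : ρ → F) (p : Prog M F α) (v : ρ → ℕ) (c : ℕ) (v' : ρ → ℕ) : Prop :=
  ∀ s : Store M F α, RL u j v s → Tri d p s c (fun s' => RL u j v' s' ∧ s'.m = s.m ∧
    ∀ f, (∀ x, f ≠ j x) → s'.z f = s.z f)

theorem RP.seq {p q : Prog M F α} {v v' v'' : ρ → ℕ} {c c' : ℕ} (h : RP d u j p v c v')
    (h' : RP d u j q v' c' v'') : RP d u j (.seq p q) v (c + c') v'' := by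
  intro s hs
  refine Tri.seq (h s hs) ?_
  rintro s1 ⟨h1, h2, h3⟩
  refine (h' s1 h1).post ?_
  rintro s2 ⟨h4, h5, h6⟩
  exact ⟨h4, h5.trans h2, fun f hf => (h6 f hf).trans (h3 f hf)⟩

theorem RP.mono {p : Prog M F α} {v v' v'' : ρ → ℕ} {c c' : ℕ} (h : RP d u j p v c v')
    (hv : v' = v'') (hc : c ≤ c') : RP d u j p v c' v'' := by
  subst hv
  intro s hs
  exact (h s hs).cost hc

theorem RP.pre {p : Prog M F α} {v v0 v' : ρ → ℕ} {c : ℕ} (h : RP d u j p v c v')
    (hv : v0 = v) : RP d u j p v0 c v' := hv ▸ h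

/-- From a triple on some rulers. -/
theorem rp_of_tri (hj : Function.Injective j) (S : List ρ) {p : Prog M F α} {v v' : ρ → ℕ} {c : ℕ}
    (h : ∀ s : Store M F α, RL u j v s → Tri d p s c (fun s' =>
      (∀ x ∈ S, Len u 0 (v' x) (s'.z (j x))) ∧ Keep (S.map j) s s'))
    (hv : ∀ x, x ∉ S → v' x = v x) : RP d u j p v c v' := by
  intro s hs
  refine (h s hs).post ?_
  rintro s' ⟨h1, h2⟩
  refine ⟨fun x => ?_, h2.1, fun f hf => h2.z ?_⟩
  · by_cases hx : x ∈ S
    · exact h1 x hx
    · rw [hv x hx]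
      exact h2.len (by simpa [hj.eq_iff] using hx) (hs x)
  · simp only [List.mem_map, not_exists, not_and]
    exact fun x _ h => hf x h.symm

theorem rp_cp (hj : Function.Injective j) {v : ρ → ℕ} {a b : ρ} (hab : a ≠ b) :
    RP (M := M) d u j (cpU (j a) (j b) u) v (4 * v a + 5) (update v b (v a)) := by
  refine rp_of_tri hj [a, b] (fun s hs => ?_) ?_
  · refine (tri_cpU (hj.ne hab) (hs a)).post ?_
    rintro s' ⟨h1, h2, h3⟩
    refine ⟨?_, h3⟩
    intro x hx
    simp only [List.mem_cons, List.not_mem_nil, or_false] at hx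
    rcases hx with rfl | rfl
    · rw [Function.update_of_ne hab]
      exact h2
    · rw [Function.update_self]
      exact h1
  · intro x hx
    simp only [List.mem_cons, List.not_mem_nil, or_false, not_or] at hx
    rw [Function.update_of_ne hx.2]

theorem rp_clr (hj : Function.Injective j) {v : ρ → ℕ} (a : ρ) :
    RP (M := M) d u j (clr (j a)) v 2 (update v a 0) := by
  refine rp_of_tri hj [a] (fun s hs => ?_) ?_
  · refine (tri_clr (j a) s).post ?_
    rintro s' ⟨h1, h2⟩
    refine ⟨?_, h2⟩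
    intro x hx
    simp only [List.mem_cons, List.not_mem_nil, or_false] at hx
    subst hx
    rw [Function.update_self, h1]
    rfl
  · intro x hx
    simp only [List.mem_cons, List.not_mem_nil, or_false] at hx
    rw [Function.update_of_ne hx]

theorem rp_inc (hj : Function.Injective j) {v : ρ → ℕ} (a : ρ) :
    RP (M := M) d u j (incU (j a) u) v (2 * v a + 4) (update v a (v a + 1)) := by
  refine rp_of_tri hj [a] (fun s hs => ?_) ?_
  · refine (tri_incU (hs a)).post ?_
    rintro s' ⟨h1, h2⟩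
    refine ⟨?_, h2⟩
    intro x hx
    simp only [List.mem_cons, List.not_mem_nil, or_false] at hx
    subst hx
    rw [Function.update_self]
    exact h1
  · intro x hx
    simp only [List.mem_cons, List.not_mem_nil, or_false] at hx
    rw [Function.update_of_ne hx]

theorem rp_pow (hj : Function.Injective j) {v : ρ → ℕ} {a b t : ρ} (hab : a ≠ b) (hat : a ≠ t)
    (hbt : b ≠ t) (ht : v t = 0) :
    RP (M := M) d u j (pow2 (j a) (j b) (j t) u) v (8 * 2 ^ v a + 8 * v a + 5)
      (update v b (2 ^ v a)) := by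
  refine rp_of_tri hj [b, t, a] (fun s hs => ?_) ?_
  · have h0 := hs t
    rw [ht] at h0
    refine (tri_pow2 (hj.ne hab) (hj.ne hat) (hj.ne hbt) (hs a) h0).post ?_
    rintro s' ⟨h1, h2, h3, h4⟩
    refine ⟨?_, h4⟩
    intro x hx
    simp only [List.mem_cons, List.not_mem_nil, or_false] at hx
    rcases hx with rfl | rfl | rfl
    · rw [Function.update_self]
      exact h1
    · rw [Function.update_of_ne hbt.symm, ht]
      exact h3
    · rw [Function.update_of_ne hab]
      exact h2
  · intro x hx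
    simp only [List.mem_cons, List.not_mem_nil, or_false, not_or] at hx
    rw [Function.update_of_ne hx.1]

theorem rp_halve (hj : Function.Injective j) {v : ρ → ℕ} {a b c : ρ} (hab : a ≠ b) (hac : a ≠ c)
    (hbc : b ≠ c) :
    RP (M := M) d u j (halve (j a) (j b) (j c) u) v (8 * v a + 16)
      (update (update v b ((v a + 1) / 2)) c (v a / 2)) := by
  refine rp_of_tri hj [a, b, c] (fun s hs => ?_) ?_
  · refine (tri_halve (hj.ne hab) (hj.ne hac) (hj.ne hbc) (hs a)).post ?_
    rintro s' ⟨h1, h2, h3, h4⟩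
    refine ⟨?_, h4⟩
    intro x hx
    simp only [List.mem_cons, List.not_mem_nil, or_false] at hx
    rcases hx with rfl | rfl | rfl
    · rw [Function.update_of_ne hac, Function.update_of_ne hab]
      exact h3
    · rw [Function.update_of_ne hbc, Function.update_self]
      exact h1
    · rw [Function.update_self]
      exact h2
  · intro x hx
    simp only [List.mem_cons, List.not_mem_nil, or_false, not_or] at hx
    rw [Function.update_of_ne hx.2.2, Function.update_of_ne hx.2.1]

theorem rp_diff (hj : Function.Injective j) {v : ρ → ℕ} {a b c : ρ} (hab : a ≠ b) (hac : a ≠ c)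
    (hbc : b ≠ c) (hv : v b ≤ v a) :
    RP (M := M) d u j (diffU (j a) (j b) (j c) u) v (4 * v a + 7)
      (update v c (v a - v b)) := by
  refine rp_of_tri hj [a, b, c] (fun s hs => ?_) ?_
  · refine (tri_diffU (hj.ne hab) (hj.ne hac) (hj.ne hbc) hv (hs a) (hs b)).post ?_
    rintro s' ⟨h1, h2, h3, h4⟩
    refine ⟨?_, h4⟩
    intro x hx
    simp only [List.mem_cons, List.not_mem_nil, or_false] at hx
    rcases hx with rfl | rfl | rfl
    · rw [Function.update_of_ne hac]
      exact h2
    · rw [Function.update_of_ne hbc]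
      exact h3
    · rw [Function.update_self]
      exact h1
  · intro x hx
    simp only [List.mem_cons, List.not_mem_nil, or_false, not_or] at hx
    rw [Function.update_of_ne hx.2.2]

theorem rp_mul (hj : Function.Injective j) {v : ρ → ℕ} {a b c : ρ} (hab : a ≠ b) (hac : a ≠ c)
    (hbc : b ≠ c) :
    RP (M := M) d u j (mulU (j a) (j b) (j c) u) v (4 * (v a * v b) + 4 * v a + 5)
      (update v c (v a * v b)) := by
  refine rp_of_tri hj [a, b, c] (fun s hs => ?_) ?_
  · refine (tri_mulU (hj.ne hab) (hj.ne hac) (hj.ne hbc) (hs a) (hs b)).post ?_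
    rintro s' ⟨h1, h2, h3, h4⟩
    refine ⟨?_, h4⟩
    intro x hx
    simp only [List.mem_cons, List.not_mem_nil, or_false] at hx
    rcases hx with rfl | rfl | rfl
    · rw [Function.update_of_ne hac]
      exact h2
    · rw [Function.update_of_ne hbc]
      exact h3
    · rw [Function.update_self]
      exact h1
  · intro x hx
    simp only [List.mem_cons, List.not_mem_nil, or_false, not_or] at hx
    rw [Function.update_of_ne hx.2.2]

theorem rp_dec (hj : Function.Injective j) {v : ρ → ℕ} (a : ρ) (h0 : 0 < v a) :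
    RP (M := M) d u j (decU (j a)) v (2 * v a + 6) (update v a (v a - 1)) := by
  refine rp_of_tri hj [a] (fun s hs => ?_) ?_
  · obtain ⟨n, hn⟩ : ∃ n, v a = n + 1 := ⟨v a - 1, by omega⟩
    have h1 := hs a
    rw [hn] at h1
    refine ((tri_decU h1).mono ?_ ?_)
    · omega
    rintro s' ⟨h1, h2⟩
    refine ⟨?_, h2⟩
    intro x hx
    simp only [List.mem_cons, List.not_mem_nil, or_false] at hx
    subst hx
    rw [Function.update_self, hn]
    exact h1
  · intro x hx
    simp only [List.mem_cons, List.not_mem_nil, or_false] at hx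
    rw [Function.update_of_ne hx]

/-- Clear some rulers. -/
def clrs (j : ρ → F) : List ρ → Prog M F α
  | [] => nop
  | x :: xs => .seq (clr (j x)) (clrs j xs)

theorem rp_nop {v : ρ → ℕ} : RP (M := M) d u j nop v 1 v := by
  intro s hs
  exact ⟨s, run_nop s.m s.z, hs, rfl, fun _ _ => rfl⟩

theorem rp_clrs (hj : Function.Injective j) (xs : List ρ) (v : ρ → ℕ) :
    RP (M := M) d u j (clrs j xs) v (2 * xs.length + 1) (fun x => if x ∈ xs then 0 else v x) := by
  induction xs generalizing v with
  | nil => exact rp_nop.mono (by simp) (by simp)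
  | cons y xs ih =>
    refine ((rp_clr hj y).seq (ih _)).mono ?_ ?_
    · funext x
      by_cases h1 : x = y
      · subst h1
        simp
      · simp [h1]
    · rw [List.length_cons]; omega

/-! ### The same rules with explicit values -/

section explicit

variable {v : ρ → ℕ} {a b c t : ρ} {m n : ℕ}

theorem rp_cp' (hj : Function.Injective j) (hab : a ≠ b) (ha : v a = n) :
    RP (M := M) d u j (cpU (j a) (j b) u) v (4 * n + 5) (update v b n) := by
  subst ha
  exact rp_cp hj hab

theorem rp_inc' (hj : Function.Injective j) (ha : v a = n) :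
    RP (M := M) d u j (incU (j a) u) v (2 * n + 4) (update v a (n + 1)) := by
  subst ha
  exact rp_inc hj a

theorem rp_dec' (hj : Function.Injective j) (ha : v a = n + 1) :
    RP (M := M) d u j (decU (j a)) v (2 * n + 8) (update v a n) := by
  have := rp_dec (M := M) (d := d) (u := u) hj (v := v) a (by omega)
  rw [ha] at this
  exact this.mono rfl (by omega)

theorem rp_pow' (hj : Function.Injective j) (hab : a ≠ b) (hat : a ≠ t) (hbt : b ≠ t)
    (ht : v t = 0) (ha : v a = n) :
    RP (M := M) d u j (pow2 (j a) (j b) (j t) u) v (8 * 2 ^ n + 8 * n + 5)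
      (update v b (2 ^ n)) := by
  subst ha
  exact rp_pow hj hab hat hbt ht

theorem rp_halve' (hj : Function.Injective j) (hab : a ≠ b) (hac : a ≠ c)
    (hbc : b ≠ c) (ha : v a = n) :
    RP (M := M) d u j (halve (j a) (j b) (j c) u) v (8 * n + 16)
      (update (update v b ((n + 1) / 2)) c (n / 2)) := by
  subst ha
  exact rp_halve hj hab hac hbc

theorem rp_diff' (hj : Function.Injective j) (hab : a ≠ b) (hac : a ≠ c)
    (hbc : b ≠ c) (ha : v a = m) (hb : v b = n) (hnm : n ≤ m) :
    RP (M := M) d u j (diffU (j a) (j b) (j c) u) v (4 * m + 7)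
      (update v c (m - n)) := by
  subst ha hb
  exact rp_diff hj hab hac hbc hnm

theorem rp_mul' (hj : Function.Injective j) (hab : a ≠ b) (hac : a ≠ c)
    (hbc : b ≠ c) (ha : v a = m) (hb : v b = n) :
    RP (M := M) d u j (mulU (j a) (j b) (j c) u) v (4 * (m * n) + 4 * m + 5)
      (update v c (m * n)) := by
  subst ha hb
  exact rp_mul hj hab hac hbc

end explicit

/-! ### Logarithm -/

/-- `b := ⌊log2 |w|⌋` for `|w| ≥ 1`; `w`, `c`, `k` are destroyed. -/
def logU (w b c k : F) (u : α) : Prog M F α :=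
  .seq (clr b) (.seq (op w .right)
    (.seq (.loop (fun _ r => (r w).isSome) (.seq (op w .rew) (.seq (halve w c k u)
      (.seq (cpU k w u) (.seq (incU b u) (op w .right)))))) (op w .rew)))

theorem tri_logU {w b c k : F} (hwb : w ≠ b) (hwc : w ≠ c) (hwk : w ≠ k) (hbc : b ≠ c)
    (hbk : b ≠ k) (hck : c ≠ k) {s : Store M F α} {n : ℕ} (hn : 1 ≤ n)
    (hw : Len u 0 n (s.z w)) :
    Tri d (logU w b c k u) s (20 * n * n + 40 * n + 5) (fun s' => Len u 0 (Nat.log 2 n) (s'.z b) ∧
      Keep [w, b, c, k] s s') := by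
  have hln : Nat.log 2 n ≤ n := Nat.log_le_self 2 n
  refine (Tri.seq (t' := 20 * n * n + 40 * n + 3) (tri_clr b s) ?_).cost (by omega)
  rintro s1 ⟨h1, k1⟩
  obtain ⟨m, rfl⟩ : ∃ m, n = m + 1 := ⟨n - 1, by omega⟩
  have hw1 : Len u 0 (m + 1) (s1.z w) := k1.len (by simp [hwb]) hw
  refine (Tri.seq (t' := 20 * (m + 1) * (m + 1) + 40 * (m + 1) + 2) (tri_right hw1) ?_).cost
    (by omega)
  rintro s2 ⟨h2, k2⟩
  have hb2 : Len u 0 0 (s2.z b) := k2.len (by simp [hwb.symm]) h1
  have hloop := Tri.loop (d := d) (c := fun _ r => (r w).isSome) (p := .seq (op w .rew)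
      (.seq (halve w c k u) (.seq (cpU k w u) (.seq (incU b u) (op w .right)))))
    (Nat.log 2 (m + 1)) (fun i s' => Len u 1 ((m + 1) / 2 ^ i - 1) (s'.z w) ∧
      Len u 0 i (s'.z b) ∧ Keep [w, b, c, k] s s') (14 * (m + 1) + 28) ?_ ?_ ?_ (s := s2)
      ⟨by simpa using h2, hb2, (k1.mono (by simp)).trans (k2.mono (by simp))⟩
  · refine (Tri.seq (t' := 1) hloop ?_).cost ?_
    · rintro s3 ⟨h3, h4, k3⟩
      refine (tri_rew h3).post ?_
      rintro s4 ⟨h5, k4⟩
      exact ⟨k4.len (by simp [hwb.symm]) h4, k3.trans (k4.mono (by simp))⟩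
    · have e1 : Nat.log 2 (m + 1) * (14 * (m + 1) + 28 + 1) ≤ (m + 1) * (14 * (m + 1) + 28 + 1) :=
        Nat.mul_le_mul_right _ hln
      nlinarith
  · rintro i hi s' ⟨h3, _⟩
    rw [Store.reads, h3.peek_isSome]
    have h4 : 2 ^ (i + 1) ≤ m + 1 := Nat.pow_le_of_le_log (by omega) hi
    have h5 : 2 ≤ (m + 1) / 2 ^ i := by
      rw [Nat.le_div_iff_mul_le (by positivity)]
      rw [pow_succ] at h4
      omega
    simp
    omega
  · rintro s' ⟨h3, _⟩
    rw [Store.reads, h3.peek_isSome]
    have h5 : (m + 1) / 2 ^ Nat.log 2 (m + 1) < 2 := by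
      rw [Nat.div_lt_iff_lt_mul (by positivity)]
      have := Nat.lt_pow_succ_log_self (b := 2) (by norm_num) (m + 1)
      rw [pow_succ] at this
      omega
    simp
    omega
  · rintro i hi s3 ⟨h3, h4, k3⟩
    have h5 : 2 ^ (i + 1) ≤ m + 1 := Nat.pow_le_of_le_log (by omega) hi
    have h6 : 2 ≤ (m + 1) / 2 ^ i := by
      rw [Nat.le_div_iff_mul_le (by positivity)]
      rw [pow_succ] at h5
      omega
    have h7 : (m + 1) / 2 ^ i ≤ m + 1 := Nat.div_le_self _ _
    set N := (m + 1) / 2 ^ i with hN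
    have hN2 : (m + 1) / 2 ^ (i + 1) = N / 2 := by
      rw [pow_succ, ← Nat.div_div_eq_div_mul]
    refine (Tri.seq (t' := 14 * (m + 1) + 27) (tri_rew h3) ?_).cost (by omega)
    rintro s4 ⟨q4, k4⟩
    rw [show 1 + (N - 1) = N by omega] at q4
    refine (Tri.seq (t' := 6 * (m + 1) + 11) (tri_halve hwc hwk hck q4) ?_).cost (by omega)
    rintro s5 ⟨q5, q5', q5'', k5⟩
    refine (Tri.seq (t' := 4 * (m + 1) + 6) (tri_cpU hwk.symm q5') ?_).cost (by omega)
    rintro s6 ⟨q6, q6', k6⟩
    have hb6 : Len u 0 i (s6.z b) := k6.len (by simp [hbk, hwb.symm])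
      (k5.len (by simp [hwb.symm, hbc, hbk]) (k4.len (by simp [hwb.symm]) h4))
    refine (Tri.seq (t' := 1) (tri_incU hb6) ?_).cost (by omega)
    rintro s7 ⟨q7, k7⟩
    have hw7 : Len u 0 (N / 2) (s7.z w) := k7.len (by simp [hwb]) q6
    obtain ⟨r, hr⟩ : ∃ r, N / 2 = r + 1 := ⟨N / 2 - 1, by omega⟩
    rw [hr] at hw7
    refine (tri_right hw7).post ?_
    rintro s8 ⟨q8, k8⟩
    refine ⟨?_, k8.len (by simp [hwb.symm]) q7, k3.trans ((k4.mono (by simp)).trans
      ((k5.mono ?_).trans ((k6.mono ?_).trans ((k7.mono (by simp)).trans (k8.mono (by simp))))))⟩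
    · rw [hN2, hr]
      exact q8
    · intro f hf
      simp only [List.mem_cons, List.not_mem_nil, or_false] at hf ⊢
      tauto
    · intro f hf
      simp only [List.mem_cons, List.not_mem_nil, or_false] at hf ⊢
      tauto

end Vale.Agent.P338.R2.H778.Fp
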